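import Mathlib

/-!
# The number of halving planes through a generic vector is odd

Abstract rank two version: `D` is an alternating form satisfying the three term Grassmann Pluecker relation.
-/

namespace Vale.Agent.P040.Sph28

open Finset

section Walk

variable {I : Type*} [DecidableEq I]

/-- level of the element `u` in the set `S` -/
noncomputable def lev (pos : I → Prop) [DecidablePred pos] (κ : I → ℝ) (S : Finset I) (u : I) : ℕ :=
  (S.filter fun v => pos v ∧ κ u < κ v).card + (S.filter fun v => ¬ pos v ∧ κ v < κ u).card

/-- the walk lemma -/
theorem walk_parity (pos : I → Prop) [DecidablePred pos] (κ : I → ℝ) (S : Finset I) :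
    Set.InjOn κ (S : Set I) → ∀ k : ℤ,
      ((S.filter fun u => (lev pos κ S u : ℤ) = k).card : ℤ) % 2 =
        ((if ((S.filter pos).card : ℤ) ≤ k then 1 else 0) +
          (if ((S.filter fun v => ¬ pos v).card : ℤ) ≤ k then 1 else 0)) % 2 := by
  refine Finset.induction_on_max_value κ S ?_ ?_
  · intro _ k
    simp only [filter_empty, card_empty, Nat.cast_zero]
    split_ifs <;> simp
  · intro z S hz hmax ih hinj k
    have hinj' : Set.InjOn κ (S : Set I) := hinj.mono (by simp)
    have hlt : ∀ x ∈ S, κ x < κ z := by
      intro x hx
      refine lt_of_le_of_ne (hmax x hx) ?_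
      intro h
      have := hinj (by simp [hx]) (by simp) h
      exact hz (this ▸ hx)
    -- level of z
    have hlevz : lev pos κ (insert z S) z = (S.filter fun v => ¬ pos v).card := by
      unfold lev
      have h1 : ((insert z S).filter fun v => pos v ∧ κ z < κ v) = ∅ := by
        apply filter_eq_empty_iff.mpr
        intro v hv
        rcases mem_insert.mp hv with rfl | hv
        · simp
        · intro h
          exact absurd h.2 (not_lt.mpr (hlt v hv).le)
      have h2 : ((insert z S).filter fun v => ¬ pos v ∧ κ v < κ z) = S.filter fun v => ¬ pos v := by
        ext v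
        simp only [mem_filter, mem_insert]
        constructor
        · rintro ⟨rfl | hv, h1, h2⟩
          · exact absurd h2 (lt_irrefl _)
          · exact ⟨hv, h1⟩
        · rintro ⟨hv, h1⟩
          exact ⟨Or.inr hv, h1, hlt v hv⟩
      rw [h1, h2]
      simp
    -- level of the others
    have hlevu : ∀ u ∈ S, lev pos κ (insert z S) u = lev pos κ S u + (if pos z then 1 else 0) := by
      intro u hu
      unfold lev
      have h2 : ((insert z S).filter fun v => ¬ pos v ∧ κ v < κ u) = S.filter fun v => ¬ pos v ∧ κ v < κ u := by
        rw [filter_insert, if_neg]
        intro h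
        exact absurd h.2 (not_lt.mpr (hlt u hu).le)
      rw [h2]
      by_cases hp : pos z
      · rw [filter_insert, if_pos ⟨hp, hlt u hu⟩, card_insert_of_notMem (by simp [hz]), if_pos hp]
        omega
      · rw [filter_insert, if_neg (fun h => hp h.1), if_neg hp]
        omega
    have hsplit : ((insert z S).filter fun u => (lev pos κ (insert z S) u : ℤ) = k).card =
        (if ((S.filter fun v => ¬ pos v).card : ℤ) = k then 1 else 0) +
          (S.filter fun u => (lev pos κ S u : ℤ) = k - (if pos z then 1 else 0)).card := by
      rw [filter_insert, hlevz]
      have hcong : (S.filter fun u => (lev pos κ (insert z S) u : ℤ) = k) =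
          S.filter fun u => (lev pos κ S u : ℤ) = k - (if pos z then 1 else 0) := by
        apply filter_congr
        intro u hu
        rw [hlevu u hu]
        push_cast
        constructor <;> intro h <;> linarith
      rw [hcong]
      by_cases h1 : ((S.filter fun v => ¬ pos v).card : ℤ) = k
      · rw [if_pos h1, if_pos h1, card_insert_of_notMem (by simp [hz])]
        omega
      · rw [if_neg h1, if_neg h1]
        omega
    rw [hsplit]
    have ih' := ih hinj' (k - (if pos z then 1 else 0))
    by_cases hp : pos z
    · have e1 : ((insert z S).filter pos).card = (S.filter pos).card + 1 := by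
        rw [filter_insert, if_pos hp, card_insert_of_notMem (by simp [hz])]
      have e2 : ((insert z S).filter fun v => ¬ pos v).card = (S.filter fun v => ¬ pos v).card := by
        rw [filter_insert, if_neg (by simpa using hp)]
      rw [e1, e2]
      simp only [if_pos hp] at ih' ⊢
      push_cast
      split_ifs at ih' ⊢ <;> omega
    · have e1 : ((insert z S).filter pos).card = (S.filter pos).card := by
        rw [filter_insert, if_neg hp]
      have e2 : ((insert z S).filter fun v => ¬ pos v).card = (S.filter fun v => ¬ pos v).card + 1 := by
        rw [filter_insert, if_pos hp, card_insert_of_notMem (by simp [hz])]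
      rw [e1, e2]
      simp only [if_neg hp] at ih' ⊢
      push_cast
      split_ifs at ih' ⊢ <;> omega

end Walk

theorem sign_aux (a b t : ℝ) (ha : 0 < a) (hb : b ≠ 0) :
    0 < a * b * t ↔ (0 < b ∧ 0 < t) ∨ (¬ 0 < b ∧ t < 0) := by
  rcases lt_or_gt_of_ne hb with hb | hb
  · have hab : a * b < 0 := mul_neg_of_pos_of_neg ha hb
    constructor
    · intro h
      right
      refine ⟨not_lt.mpr hb.le, ?_⟩
      by_contra ht
      rw [not_lt] at ht
      have := mul_nonpos_of_nonpos_of_nonneg hab.le ht
      linarith
    · rintro (⟨h1, _⟩ | ⟨_, h2⟩)
      · exact absurd h1 (not_lt.mpr hb.le)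
      · exact mul_pos_of_neg_of_neg hab h2
  · have hab : 0 < a * b := mul_pos ha hb
    constructor
    · intro h
      left
      refine ⟨hb, ?_⟩
      by_contra ht
      rw [not_lt] at ht
      have := mul_nonpos_of_nonneg_of_nonpos hab.le ht
      linarith
    · rintro (⟨_, h2⟩ | ⟨h1, _⟩)
      · exact mul_pos hab h2
      · exact absurd hb h1

/-- The number of `u` such that exactly `k` of the `2k` other elements are on the positive side of `u` is odd. -/
theorem odd_halving {I : Type*} [Fintype I] [DecidableEq I] (k : ℕ) (hcard : Fintype.card I = 2 * k + 1)
    (D : I → I → ℝ) (hanti : ∀ a b, D a b = - D b a) (hne : ∀ a b, a ≠ b → D a b ≠ 0)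
    (hGP : ∀ a b c d, D a b * D c d - D a c * D b d + D a d * D b c = 0) :
    Odd (univ.filter fun u => (univ.filter fun v => 0 < D u v).card = k).card := by
  classical
  have hself : ∀ a, D a a = 0 := by
    intro a
    have := hanti a a
    linarith
  have hpos : 0 < Fintype.card I := by omega
  obtain ⟨o⟩ : Nonempty I := Fintype.card_pos_iff.mp hpos
  rcases Nat.eq_zero_or_pos k with hk | hk
  · subst hk
    have h1 : Fintype.card I = 1 := by simpa using hcard
    obtain ⟨x, hx⟩ := Fintype.card_eq_one_iff.mp h1
    have huniv : (univ : Finset I) = {o} := by
      ext y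
      simp [hx y, hx o]
    rw [huniv]
    simp [filter_singleton, hself]
  · obtain ⟨e, he⟩ : ∃ e, e ≠ o := Fintype.exists_ne_of_one_lt_card (by omega) o
    set S : Finset I := univ.erase o with hS
    have hmemS : ∀ u, u ∈ S ↔ u ≠ o := by
      intro u
      simp [hS]
    let pos : I → Prop := fun u => 0 < D o u
    let κ : I → ℝ := fun u => D e u / (D o u * D o e)
    have he' : D o e ≠ 0 := hne o e he.symm
    have hkey : ∀ u ∈ S, ∀ v ∈ S, D u v = D o u * D o v * (κ v - κ u) := by
      intro u hu v hv
      have hu' : D o u ≠ 0 := hne o u ((hmemS u).mp hu).symm
      have hv' : D o v ≠ 0 := hne o v ((hmemS v).mp hv).symm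
      have h := hGP o e u v
      simp only [κ]
      field_simp
      linear_combination h
    have hinj : Set.InjOn κ (S : Set I) := by
      intro u hu v hv huv
      by_contra hne'
      have := hkey u hu v hv
      rw [huv, sub_self, mul_zero] at this
      exact hne u v hne' this
    have hcS : S.card = 2 * k := by
      rw [hS, card_erase_of_mem (mem_univ o), card_univ, hcard]
      omega
    have hPQ : (S.filter pos).card + (S.filter fun v => ¬ pos v).card = 2 * k := by
      rw [card_filter_add_card_filter_not, hcS]
    have hc_o : (univ.filter fun v => 0 < D o v).card = (S.filter pos).card := by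
      congr 1
      ext v
      simp only [mem_filter, mem_univ, true_and, hmemS, pos]
      constructor
      · intro h
        refine ⟨?_, h⟩
        rintro rfl
        rw [hself] at h
        exact lt_irrefl _ h
      · exact fun h => h.2
    have hc_pos : ∀ u ∈ S, pos u → (univ.filter fun v => 0 < D u v).card = lev pos κ S u := by
      intro u hu hpu
      unfold lev
      rw [← card_union_of_disjoint]
      · congr 1
        ext v
        simp only [mem_filter, mem_univ, true_and, mem_union]
        by_cases hvo : v = o
        · subst hvo
          have h1 : ¬ 0 < D u v := by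
            rw [hanti u v]
            have : 0 < D v u := hpu
            linarith
          have h2 : v ∉ S := by simp [hS]
          simp [h1, h2]
        · have hv : v ∈ S := (hmemS v).mpr hvo
          rw [hkey u hu v hv, sign_aux _ _ _ hpu (hne o v (Ne.symm hvo))]
          simp only [hv, true_and, pos, sub_pos, sub_neg]
      · rw [disjoint_left]
        intro v h1 h2
        exact (mem_filter.mp h2).2.1 (mem_filter.mp h1).2.1
    have hfour : ∀ u ∈ S,
        (S.filter fun v => pos v ∧ κ u < κ v).card + (S.filter fun v => ¬ pos v ∧ κ v < κ u).card +
          (S.filter fun v => pos v ∧ κ v < κ u).card + (S.filter fun v => ¬ pos v ∧ κ u < κ v).card + 1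
          = 2 * k := by
      intro u hu
      have h1 : (S.erase u).card + 1 = 2 * k := by
        rw [card_erase_of_mem hu, hcS]
        omega
      rw [← h1, ← filter_ne' S u]
      simp only [card_filter]
      rw [← sum_add_distrib, ← sum_add_distrib, ← sum_add_distrib]
      congr 1
      apply sum_congr rfl
      intro v hv
      by_cases hvu : v = u
      · subst hvu
        simp
      · have hk : κ v ≠ κ u := fun h => hvu (hinj hv hu h)
        rcases lt_or_gt_of_ne hk with hlt | hlt
        · by_cases hp : pos v <;> simp [hp, hlt, not_lt.mpr hlt.le, hvu]
        · by_cases hp : pos v <;> simp [hp, hlt, not_lt.mpr hlt.le, hvu]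
    have hc_neg : ∀ u ∈ S, ¬ pos u →
        (univ.filter fun v => 0 < D u v).card + lev pos κ S u = 2 * k := by
      intro u hu hpu
      have huo : u ≠ o := (hmemS u).mp hu
      have hlt : 0 < - D o u := by
        have h1 : D o u ≠ 0 := hne o u huo.symm
        have h2 : ¬ 0 < D o u := hpu
        rcases lt_or_gt_of_ne h1 with h | h
        · linarith
        · exact absurd h h2
      have hset : (univ.filter fun v => 0 < D u v) =
          insert o ((S.filter fun v => pos v ∧ κ v < κ u) ∪ (S.filter fun v => ¬ pos v ∧ κ u < κ v)) := by
        ext v
        simp only [mem_filter, mem_univ, true_and, mem_union, mem_insert]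
        by_cases hvo : v = o
        · subst hvo
          have h1 : 0 < D u v := by
            rw [hanti u v]
            exact hlt
          simp [h1]
        · have hv : v ∈ S := (hmemS v).mpr hvo
          have e1 : D u v = (- D o u) * D o v * (κ u - κ v) := by
            rw [hkey u hu v hv]
            ring
          rw [e1, sign_aux _ _ _ hlt (hne o v (Ne.symm hvo))]
          simp only [hv, true_and, pos, sub_pos, sub_neg, hvo, false_or]
      rw [hset, card_insert_of_notMem, card_union_of_disjoint]
      · have := hfour u hu
        unfold lev
        omega
      · rw [disjoint_left]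
        intro v h1 h2
        exact (mem_filter.mp h2).2.1 (mem_filter.mp h1).2.1
      · simp [hS]
    have huniv : (univ : Finset I) = insert o S := by
      rw [hS, insert_erase (mem_univ o)]
    have hcount : (univ.filter fun u => (univ.filter fun v => 0 < D u v).card = k).card =
        (if (S.filter pos).card = k then 1 else 0) + (S.filter fun u => (lev pos κ S u : ℤ) = (k : ℤ)).card := by
      have hcong : (S.filter fun u => (univ.filter fun v => 0 < D u v).card = k) =
          S.filter fun u => (lev pos κ S u : ℤ) = (k : ℤ) := by
        apply filter_congr
        intro u hu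
        by_cases hp : pos u
        · rw [hc_pos u hu hp]
          exact Nat.cast_inj.symm
        · have := hc_neg u hu hp
          rw [Nat.cast_inj]
          omega
      have hgen : ∀ (p : I → Prop) [DecidablePred p],
          (univ.filter p).card = ((insert o S).filter p).card := by
        intro p _
        rw [← huniv]
      rw [hgen, filter_insert, hc_o, hcong]
      by_cases h1 : (S.filter pos).card = k
      · rw [if_pos h1, if_pos h1, card_insert_of_notMem (by simp [hS])]
        omega
      · rw [if_neg h1, if_neg h1]
        omega
    rw [hcount, Nat.odd_iff]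
    have hw := walk_parity pos κ S hinj (k : ℤ)
    split_ifs at hw ⊢ <;> omega

end Vale.Agent.P040.Sph28
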